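import Vale.Agent.P064.Bdl.B1

namespace Vale.Agent.Results.P064.Full

open Vale.Agent.P064

/-- **The second Kahn-Kalai conjecture**, in the refined form `p̃_E = Θ(p_E)`, together with the
matching lower bound: the smallest `f(n)` with `p_c(n,H) ≤ f(n) p_E(n,H)` for all `H` is
`Θ(log n)`. -/
theorem result : ∃ C c : ℝ, 0 < c ∧
    (∀ (n : ℕ) (W : Type*) [Fintype W] (H : SimpleGraph W), 2 ≤ n → Fintype.card W ≤ n → H ≠ ⊥ →
      pc n H ≤ C * pE n H * Real.log n ∧ pE n H ≤ pEt n H ∧ pEt n H ≤ C * pE n H) ∧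
    (∀ (n : ℕ) (f : ℝ), 2 ≤ n →
      (∀ H : SimpleGraph (Fin n), H ≠ ⊥ → pc n H ≤ f * pE n H) → c * Real.log n ≤ f) ∧
    (∀ (n : ℕ) (W : Type*) [Fintype W] (H : SimpleGraph W), Fintype.card W ≤ n →
      IsLeast {x : ℝ | ∃ p : unitInterval, (p : ℝ) = x ∧ 1 / 2 ≤ probCopy n H p} (pc n H) ∧
      IsLeast {x : ℝ | ∃ p : unitInterval, (p : ℝ) = x ∧
        ∀ F : H.Subgraph, 1 / 2 ≤ expCopy n F.coe p} (pE n H) ∧
      IsLeast {x : ℝ | ∃ p : unitInterval, (p : ℝ) = x ∧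
        ∀ F : H.Subgraph, (H.copyCount F.coe : ℝ) / 2 ≤ expCopy n F.coe p} (pEt n H)) := by
  refine ⟨12 * (48 * 2 ^ 72), 1 / 36, by norm_num, ?_, ?_, ?_⟩
  · intro n W _ H hn hW hH
    obtain ⟨j⟩ : Nonempty (W ↪ Fin n) :=
      Function.Embedding.nonempty_of_card_le (by rwa [Fintype.card_fin])
    refine ⟨second_kahn_kalai hn H hH j, pE_le_pEt H j, (pEt_le_pE H hH j).trans ?_⟩
    apply mul_le_mul_of_nonneg_right _ (pE_nonneg H)
    norm_num
  · intro n f hn hf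
    obtain ⟨h1, h2⟩ := lower hn
    have h3 := hf _ h1
    have h4 := pE_pos _ h1 (Function.Embedding.refl (Fin n))
    have h5 := h2.trans h3
    have h6 : (1 / 36 * Real.log n) * pE n (nmat n) ≤ f * pE n (nmat n) := by
      calc (1 / 36 * Real.log n) * pE n (nmat n)
          = 1 / 36 * pE n (nmat n) * Real.log n := by ring
        _ ≤ _ := h5
    exact le_of_mul_le_mul_right h6 h4
  · intro n W _ H hW
    obtain ⟨j⟩ : Nonempty (W ↪ Fin n) :=
      Function.Embedding.nonempty_of_card_le (by rwa [Fintype.card_fin])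
    exact ⟨pc_isLeast H j, pE_isLeast H j, pEt_isLeast H j⟩

end Vale.Agent.Results.P064.Full
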